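import Vale.Agent.P291.H134.Sym

/-!
# P291, block SYM: products of invariants of single sets (SURJ)
-/

set_option linter.unusedSectionVars false

open MvPolynomial Finset

namespace Vale.Agent.P291.H134

variable {Λ : Type*} [CommRing Λ]
variable {B : Type*} [Fintype B] [DecidableEq B]

/-- Span of the products `∏ j, F j` with `F j ∈ A j`. -/
def prodSpan {S ι : Type*} [CommRing S] [Algebra Λ S] [Fintype ι] (A : ι → Subalgebra Λ S) :
    Submodule Λ S :=
  Submodule.span Λ {g | ∃ F : ι → S, (∀ j, F j ∈ A j) ∧ g = ∏ j, F j}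

section prodSpan

variable {S ι : Type*} [CommRing S] [Algebra Λ S] [Fintype ι] (A : ι → Subalgebra Λ S)

theorem one_mem_prodSpan : (1 : S) ∈ prodSpan A :=
  Submodule.subset_span ⟨fun _ => 1, fun j => (A j).one_mem, by simp⟩

theorem mul_mem_prodSpan {x y : S} (hx : x ∈ prodSpan A) (hy : y ∈ prodSpan A) :
    x * y ∈ prodSpan A := by
  have h : prodSpan A * prodSpan A ≤ prodSpan A := by
    unfold prodSpan
    rw [Submodule.span_mul_span]
    refine Submodule.span_mono ?_
    rintro _ ⟨_, ⟨F, hF, rfl⟩, _, ⟨G, hG, rfl⟩, rfl⟩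
    exact ⟨fun j => F j * G j, fun j => (A j).mul_mem (hF j) (hG j), by
      rw [Finset.prod_mul_distrib]⟩
  exact h (Submodule.mul_mem_mul hx hy)

theorem le_prodSpan (j : ι) {x : S} (hx : x ∈ A j) : x ∈ prodSpan A := by
  classical
  refine Submodule.subset_span ⟨Function.update (fun _ => 1) j x, fun i => ?_, ?_⟩
  · rcases eq_or_ne i j with rfl | h
    · rw [Function.update_self]; exact hx
    · rw [Function.update_of_ne h]; exact (A i).one_mem
  · rw [Finset.prod_update_of_mem (Finset.mem_univ j)]
    simp

/-- the span of products as a subalgebra -/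
def prodAlg : Subalgebra Λ S :=
  (prodSpan A).toSubalgebra (one_mem_prodSpan A) fun _ _ => mul_mem_prodSpan A

theorem mem_prodAlg {x : S} : x ∈ prodAlg A ↔ x ∈ prodSpan A := Iff.rfl

theorem adjoin_le_prodSpan {G : Set S} (hG : ∀ g ∈ G, g ∈ prodSpan A) {x : S}
    (hx : x ∈ Algebra.adjoin Λ G) : x ∈ prodSpan A := by
  have : Algebra.adjoin Λ G ≤ prodAlg A := Algebra.adjoin_le fun g hg => hG g hg
  exact this hx

end prodSpan

/-- Invariants of the stabiliser of the set `V` in the group of vertex preserving permutations. -/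
def Stb (Λ : Type*) [CommRing Λ] {I : Type*} (vx : B → I) (V : Set B) :
    Subalgebra Λ (MvPolynomial B Λ) :=
  Inv Λ fun b => (vx b, b ∈ V)

theorem mem_Stb {I : Type*} {vx : B → I} {V : Set B} {f : MvPolynomial B Λ} :
    f ∈ Stb Λ vx V ↔ ∀ σ : Equiv.Perm B, (∀ b, vx (σ b) = vx b) → (∀ b, σ b ∈ V ↔ b ∈ V) →
      rename σ f = f := by
  rw [Stb, mem_Inv]
  simp only [Prod.mk.injEq, forall_and, eq_iff_iff, and_imp]

variable [Algebra ℚ Λ]

/-- **SURJ, general form.** If the indicator functions of the atoms are rational combinations of the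
indicator functions of the single sets (vertexwise), then every invariant of the common stabiliser
is a sum of products of invariants of the stabilisers of the single sets. -/
theorem surj_of_atoms {I ι : Type*} [Fintype ι] [Nonempty ι] (vx : B → I) (V : ι → Set B)
    (hV : ∀ b : B, ∃ (q0 : ℚ) (q : ι → ℚ), ∀ b', vx b' = vx b →
      (open Classical in if (∀ j, b' ∈ V j ↔ b ∈ V j) then (1 : ℚ) else 0) =
        q0 + ∑ j, q j * (open Classical in if b' ∈ V j then (1 : ℚ) else 0))
    {f : MvPolynomial B Λ}
    (hf : ∀ σ : Equiv.Perm B, (∀ b, vx (σ b) = vx b) → (∀ j b, σ b ∈ V j ↔ b ∈ V j) →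
      rename σ f = f) :
    f ∈ prodSpan (fun j => Stb Λ vx (V j)) := by
  classical
  have hf' : f ∈ Inv Λ (fun b => (vx b, fun j => b ∈ V j)) := by
    intro σ hσ
    simp only [Prod.mk.injEq] at hσ
    refine hf σ (fun b => (hσ b).1) fun j b => ?_
    exact iff_of_eq (congrFun (hσ b).2 j)
  refine adjoin_le_prodSpan _ ?_ (mem_adjoin_pw hf')
  rintro _ ⟨b, k, rfl⟩
  obtain ⟨q0, q, hq⟩ := hV b
  have h0 : pw Λ (univ.filter fun b' => vx b' = vx b) (k + 1) ∈
      prodSpan (fun j => Stb Λ vx (V j)) := by
    obtain ⟨j⟩ := ‹Nonempty ι›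
    refine le_prodSpan _ j (pw_mem_Inv ?_)
    intro b1 b2 h12 h1
    simp only [Prod.mk.injEq] at h12
    simp only [Finset.mem_filter, Finset.mem_univ, true_and] at h1 ⊢
    rw [← h12.1, h1]
  have hj : ∀ j, pw Λ (univ.filter fun b' => vx b' = vx b ∧ b' ∈ V j) (k + 1) ∈
      prodSpan (fun j => Stb Λ vx (V j)) := by
    intro j
    refine le_prodSpan _ j (pw_mem_Inv ?_)
    intro b1 b2 h12 h1
    simp only [Prod.mk.injEq] at h12
    simp only [Finset.mem_filter, Finset.mem_univ, true_and] at h1 ⊢
    exact ⟨by rw [← h12.1, h1.1], (iff_of_eq h12.2).1 h1.2⟩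
  have key : pw Λ (univ.filter fun b' => (vx b', fun j => b' ∈ V j) = (vx b, fun j => b ∈ V j))
      (k + 1) = algebraMap ℚ Λ q0 • pw Λ (univ.filter fun b' => vx b' = vx b) (k + 1) +
        ∑ j, algebraMap ℚ Λ (q j) •
          pw Λ (univ.filter fun b' => vx b' = vx b ∧ b' ∈ V j) (k + 1) := by
    have e1 : pw Λ (univ.filter fun b' => (vx b', fun j => b' ∈ V j) = (vx b, fun j => b ∈ V j))
        (k + 1) = ∑ b' ∈ univ.filter (fun b' => vx b' = vx b),
          algebraMap ℚ Λ (if (∀ j, b' ∈ V j ↔ b ∈ V j) then (1 : ℚ) else 0) •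
            (X b' : MvPolynomial B Λ) ^ (k + 1) := by
      rw [pw, Finset.sum_filter, Finset.sum_filter]
      refine Finset.sum_congr rfl fun b' _ => ?_
      by_cases h1 : vx b' = vx b
      · simp only [Prod.mk.injEq, h1, true_and, if_true]
        by_cases h2 : ∀ j, b' ∈ V j ↔ b ∈ V j
        · rw [if_pos (funext fun j => propext (h2 j)), if_pos h2]
          simp
        · rw [if_neg (fun h => h2 fun j => iff_of_eq (congrFun h j)), if_neg h2]
          simp
      · simp [Prod.mk.injEq, h1]
    have e2 : ∀ j, pw Λ (univ.filter fun b' => vx b' = vx b ∧ b' ∈ V j) (k + 1) =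
        ∑ b' ∈ univ.filter (fun b' => vx b' = vx b),
          algebraMap ℚ Λ (if b' ∈ V j then (1 : ℚ) else 0) •
            (X b' : MvPolynomial B Λ) ^ (k + 1) := by
      intro j
      rw [pw, Finset.sum_filter, Finset.sum_filter]
      refine Finset.sum_congr rfl fun b' _ => ?_
      by_cases h1 : vx b' = vx b <;> by_cases h2 : b' ∈ V j <;> simp [h1, h2]
    rw [e1]
    simp only [e2]
    rw [pw, Finset.smul_sum]
    simp only [Finset.smul_sum]
    rw [Finset.sum_comm, ← Finset.sum_add_distrib]
    refine Finset.sum_congr rfl fun b' hb' => ?_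
    rw [hq b' (Finset.mem_filter.1 hb').2, map_add, map_sum, add_smul, Finset.sum_smul]
    congr 1
    refine Finset.sum_congr rfl fun j _ => ?_
    rw [map_mul, mul_smul]
  rw [key]
  refine Submodule.add_mem _ (Submodule.smul_mem _ _ h0)
    (Submodule.sum_mem _ fun j _ => Submodule.smul_mem _ _ (hj j))

/-- **SURJ for chains.** -/
theorem surj_chain {I ι : Type*} [Fintype ι] [Nonempty ι] (vx : B → I) (V : ι → Set B)
    (hV : ∀ i j, V i ⊆ V j ∨ V j ⊆ V i) {f : MvPolynomial B Λ}
    (hf : ∀ σ : Equiv.Perm B, (∀ b, vx (σ b) = vx b) → (∀ j b, σ b ∈ V j ↔ b ∈ V j) →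
      rename σ f = f) :
    f ∈ prodSpan (fun j => Stb Λ vx (V j)) := by
  classical
  refine surj_of_atoms vx V ?_ hf
  intro b
  -- smallest set containing `b`
  have hmin : (∃ t, b ∈ V t ∧ ∀ j, b ∈ V j → V t ⊆ V j) ∨ ∀ j, b ∉ V j := by
    by_cases hne : ∃ j, b ∈ V j
    · left
      obtain ⟨t, ht, hmin⟩ := Finset.exists_min_image (univ.filter fun j => b ∈ V j)
        (fun j => (univ.filter fun b' => b' ∈ V j).card)
        (by obtain ⟨j, hj⟩ := hne; exact ⟨j, by simp [hj]⟩)
      simp only [Finset.mem_filter, Finset.mem_univ, true_and] at ht hmin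
      refine ⟨t, ht, fun j hj => ?_⟩
      rcases hV t j with h | h
      · exact h
      · have hle := hmin j hj
        have hsub : (univ.filter fun b' => b' ∈ V j) ⊆ univ.filter fun b' => b' ∈ V t := by
          intro x hx
          simp only [Finset.mem_filter, Finset.mem_univ, true_and] at hx ⊢
          exact h hx
        have heq := Finset.eq_of_subset_of_card_le hsub hle
        intro x hx
        have : x ∈ univ.filter fun b' => b' ∈ V j := by
          rw [heq]; simp [hx]
        simpa using this
    · right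
      push Not at hne
      exact hne
  have hmax : (∃ s, b ∉ V s ∧ ∀ j, b ∉ V j → V j ⊆ V s) ∨ ∀ j, b ∈ V j := by
    by_cases hne : ∃ j, b ∉ V j
    · left
      obtain ⟨s, hs, hmax⟩ := Finset.exists_max_image (univ.filter fun j => b ∉ V j)
        (fun j => (univ.filter fun b' => b' ∈ V j).card)
        (by obtain ⟨j, hj⟩ := hne; exact ⟨j, by simp [hj]⟩)
      simp only [Finset.mem_filter, Finset.mem_univ, true_and] at hs hmax
      refine ⟨s, hs, fun j hj => ?_⟩
      rcases hV j s with h | h
      · exact h
      · have hle := hmax j hj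
        have hsub : (univ.filter fun b' => b' ∈ V s) ⊆ univ.filter fun b' => b' ∈ V j := by
          intro x hx
          simp only [Finset.mem_filter, Finset.mem_univ, true_and] at hx ⊢
          exact h hx
        have heq := Finset.eq_of_subset_of_card_le hsub hle
        intro x hx
        have : x ∈ univ.filter fun b' => b' ∈ V s := by
          rw [heq]; simp [hx]
        simpa using this
    · right
      push Not at hne
      exact hne
  rcases hmin with ⟨t, hbt, ht⟩ | hmin
  · rcases hmax with ⟨s, hbs, hs⟩ | hmax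
    · refine ⟨0, fun j => (if j = t then 1 else 0) - (if j = s then 1 else 0), fun b' _ => ?_⟩
      have hst : V s ⊆ V t := by
        rcases hV s t with h | h
        · exact h
        · exact absurd (h hbt) hbs
      have hts : t ≠ s := fun h => hbs (h ▸ hbt)
      simp only [sub_mul, ite_mul, one_mul, zero_mul, Finset.sum_sub_distrib, Finset.sum_ite_eq',
        Finset.mem_univ, if_true, zero_add]
      by_cases h1 : b' ∈ V t
      · by_cases h2 : b' ∈ V s
        · rw [if_neg, if_pos h1, if_pos h2, sub_self]
          intro h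
          exact hbs ((h s).1 h2)
        · rw [if_pos, if_pos h1, if_neg h2, sub_zero]
          intro j
          constructor
          · intro hj
            by_contra hbj
            exact h2 (hs j hbj hj)
          · intro hj
            exact ht j hj h1
      · have h2 : b' ∉ V s := fun h => h1 (hst h)
        rw [if_neg, if_neg h1, if_neg h2, sub_self]
        intro h
        exact h1 ((h t).2 hbt)
    · refine ⟨0, fun j => if j = t then 1 else 0, fun b' _ => ?_⟩
      simp only [ite_mul, one_mul, zero_mul, Finset.sum_ite_eq', Finset.mem_univ, if_true, zero_add]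
      by_cases h1 : b' ∈ V t
      · rw [if_pos, if_pos h1]
        intro j
        exact ⟨fun _ => hmax j, fun _ => ht j (hmax j) h1⟩
      · rw [if_neg, if_neg h1]
        intro h
        exact h1 ((h t).2 hbt)
  · rcases hmax with ⟨s, hbs, hs⟩ | hmax
    · refine ⟨1, fun j => -(if j = s then 1 else 0), fun b' _ => ?_⟩
      simp only [neg_mul, ite_mul, one_mul, zero_mul, Finset.sum_neg_distrib, Finset.sum_ite_eq',
        Finset.mem_univ, if_true]
      by_cases h2 : b' ∈ V s
      · rw [if_neg, if_pos h2, add_neg_cancel]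
        intro h
        exact hbs ((h s).1 h2)
      · rw [if_pos, if_neg h2, neg_zero, add_zero]
        intro j
        exact ⟨fun hj => absurd (hs j (hmin j) hj) h2, fun hj => absurd hj (hmin j)⟩
    · obtain ⟨j⟩ := ‹Nonempty ι›
      exact absurd (hmax j) (hmin j)

/-- **SURJ for disjoint sets and their union.**  `V none` is the union of the disjoint sets, whose
complements (equivalently, which themselves) are the `V (some j)`. -/
theorem surj_disjoint {I κ : Type*} [Fintype κ] (vx : B → I) (U : κ → Set B)
    (hU : ∀ i j, i ≠ j → Disjoint (U i) (U j)) (V : Option κ → Set B)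
    (h0 : ∀ b, b ∈ V none ↔ ∃ j, b ∈ U j)
    (h1 : ∀ j, (∀ b, b ∈ V (some j) ↔ b ∈ U j) ∨ (∀ b, b ∈ V (some j) ↔ b ∉ U j))
    {f : MvPolynomial B Λ}
    (hf : ∀ σ : Equiv.Perm B, (∀ b, vx (σ b) = vx b) → (∀ j b, σ b ∈ U j ↔ b ∈ U j) →
      rename σ f = f) :
    f ∈ prodSpan (fun j => Stb Λ vx (V j)) := by
  classical
  refine surj_of_atoms vx V ?_ ?_
  · intro b
    by_cases hb : ∃ j, b ∈ U j
    · obtain ⟨j, hj⟩ := hb
      have hat : ∀ b', (∀ i, b' ∈ V i ↔ b ∈ V i) ↔ b' ∈ U j := by
        intro b'
        have hsome : ∀ i, (b' ∈ V (some i) ↔ b ∈ V (some i)) ↔ (b' ∈ U i ↔ b ∈ U i) := by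
          intro i
          rcases h1 i with h | h
          · rw [h, h]
          · rw [h, h]; exact not_iff_not
        constructor
        · intro h
          exact ((hsome j).1 (h (some j))).2 hj
        · intro hb'
          have hU' : ∀ i, b' ∈ U i ↔ b ∈ U i := by
            intro i
            rcases eq_or_ne i j with rfl | hij
            · exact ⟨fun _ => hj, fun _ => hb'⟩
            · exact ⟨fun h => absurd hb' (Set.disjoint_left.1 (hU i j hij) h),
                fun h => absurd hj (Set.disjoint_left.1 (hU i j hij) h)⟩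
          intro i
          cases i with
          | none =>
            rw [h0, h0]
            exact ⟨fun _ => ⟨j, hj⟩, fun _ => ⟨j, hb'⟩⟩
          | some i => exact (hsome i).2 (hU' i)
      rcases h1 j with h | h
      · refine ⟨0, fun i => if i = some j then 1 else 0, fun b' _ => ?_⟩
        simp only [ite_mul, one_mul, zero_mul, Finset.sum_ite_eq', Finset.mem_univ, if_true,
          zero_add]
        by_cases h2 : b' ∈ U j
        · rw [if_pos ((hat b').2 h2), if_pos ((h b').2 h2)]
        · rw [if_neg (fun hh => h2 ((hat b').1 hh)), if_neg (fun hh => h2 ((h b').1 hh))]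
      · refine ⟨1, fun i => -(if i = some j then 1 else 0), fun b' _ => ?_⟩
        simp only [neg_mul, ite_mul, one_mul, zero_mul, Finset.sum_neg_distrib,
          Finset.sum_ite_eq', Finset.mem_univ, if_true]
        by_cases h2 : b' ∈ U j
        · rw [if_pos ((hat b').2 h2), if_neg (fun hh => ((h b').1 hh) h2), neg_zero, add_zero]
        · rw [if_neg (fun hh => h2 ((hat b').1 hh)), if_pos ((h b').2 h2), add_neg_cancel]
    · refine ⟨1, fun i => -(if i = none then 1 else 0), fun b' _ => ?_⟩
      simp only [neg_mul, ite_mul, one_mul, zero_mul, Finset.sum_neg_distrib,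
          Finset.sum_ite_eq', Finset.mem_univ, if_true]
      by_cases h2 : ∃ j, b' ∈ U j
      · rw [if_neg, if_pos ((h0 b').2 h2), add_neg_cancel]
        intro h
        exact hb ((h0 b).1 ((h none).1 ((h0 b').2 h2)))
      · rw [if_pos, if_neg (fun hh => h2 ((h0 b').1 hh)), neg_zero, add_zero]
        intro i
        cases i with
        | none => rw [h0, h0]; exact ⟨fun h => absurd h h2, fun h => absurd h hb⟩
        | some i =>
          have hb1 : b ∉ U i := fun h => hb ⟨i, h⟩
          have hb2 : b' ∉ U i := fun h => h2 ⟨i, h⟩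
          rcases h1 i with h | h
          · rw [h, h]; exact ⟨fun h => absurd h hb2, fun h => absurd h hb1⟩
          · rw [h, h]; exact ⟨fun _ => hb1, fun _ => hb2⟩
  · intro σ hσ1 hσ2
    refine hf σ hσ1 fun j b => ?_
    rcases h1 j with h | h
    · rw [← h, ← h]; exact hσ2 (some j) b
    · have := hσ2 (some j) b
      rw [h, h] at this
      exact not_iff_not.1 this

end Vale.Agent.P291.H134
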