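import Vale.Agent.P291.H134.Surj

/-!
# P291, block SYM: the kernel of the clustering map on invariants (KER)
-/

set_option linter.unusedSectionVars false

open MvPolynomial Finset

namespace Vale.Agent.P291.H134

variable {Λ : Type*} [CommRing Λ]
variable {B : Type*} [Fintype B] [DecidableEq B]

/-- `G i k = p_k(boxes of vertex i with lam = 1) - ∑_(lam b < 0) (- lam b) X_b ^ k`
`= p_k(lam = 1) - ∑_(j ≥ 1) p_k(lam ≤ - j)` at the vertex `i`. -/
noncomputable def GG (Λ : Type*) [CommRing Λ] {I : Type*} [DecidableEq I] (vx : B → I)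
    (lam : B → ℤ) (i : I) (k : ℕ) : MvPolynomial B Λ :=
  (∑ b ∈ univ.filter (fun b => vx b = i ∧ lam b = 1), X b ^ k) -
    ∑ b ∈ univ.filter (fun b => vx b = i ∧ lam b < 0), (-lam b).toNat • (X b : MvPolynomial B Λ) ^ k

/-- The colouring whose Young subgroup is the stabiliser of `lam`. -/
def colLam {I : Type*} (vx : B → I) (lam : B → ℤ) (b : B) : I × ℤ := (vx b, lam b)

theorem GG_mem {I : Type*} [DecidableEq I] (vx : B → I) (lam : B → ℤ) (i : I) (k : ℕ) :
    GG Λ vx lam i k ∈ Inv Λ (colLam vx lam) := by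
  intro σ hσ
  simp only [colLam, Prod.mk.injEq] at hσ
  unfold GG
  rw [map_sub, map_sum, map_sum]
  congr 1
  · simp only [map_pow, rename_X]
    refine Finset.sum_bij' (fun b _ => σ b) (fun b _ => σ.symm b) ?_ ?_ ?_ ?_ ?_
    · intro b hb
      simpa [(hσ b).1, (hσ b).2] using hb
    · intro b hb
      have h1 := hσ (σ.symm b)
      simp only [Equiv.apply_symm_apply] at h1
      simpa [← h1.1, ← h1.2] using hb
    · intro b _; simp
    · intro b _; simp
    · intro b _; rfl
  · simp only [map_nsmul, map_pow, rename_X]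
    refine Finset.sum_bij' (fun b _ => σ b) (fun b _ => σ.symm b) ?_ ?_ ?_ ?_ ?_
    · intro b hb
      simpa [(hσ b).1, (hσ b).2] using hb
    · intro b hb
      have h1 := hσ (σ.symm b)
      simp only [Equiv.apply_symm_apply] at h1
      simpa [← h1.1, ← h1.2] using hb
    · intro b _; simp
    · intro b _; simp
    · intro b _
      rw [(hσ b).2]

theorem rename_cl_GG {I : Type*} [DecidableEq I] (vx : B → I) (lam : B → ℤ) (cl : B → B)
    (hvx : ∀ b, vx (cl b) = vx b)
    (hcl0 : ∀ b, lam b ≤ 0 → cl b = b)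
    (hcl1 : ∀ b, lam b = 1 → lam (cl b) < 0)
    (hfib : ∀ b, lam b < 0 →
      ((univ.filter fun b' => lam b' = 1 ∧ cl b' = b).card : ℤ) = -lam b)
    (i : I) (k : ℕ) : rename cl (GG Λ vx lam i k) = 0 := by
  unfold GG
  rw [map_sub, map_sum, map_sum, sub_eq_zero]
  simp only [map_nsmul, map_pow, rename_X]
  have h2 : ∑ b ∈ univ.filter (fun b => vx b = i ∧ lam b < 0),
      (-lam b).toNat • (X (cl b) : MvPolynomial B Λ) ^ k =
      ∑ b ∈ univ.filter (fun b => vx b = i ∧ lam b < 0),
        ∑ b' ∈ univ.filter (fun b' => lam b' = 1 ∧ cl b' = b), (X (cl b') : MvPolynomial B Λ) ^ k := by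
    refine Finset.sum_congr rfl fun b hb => ?_
    simp only [Finset.mem_filter, Finset.mem_univ, true_and] at hb
    have h3 : ∀ b' ∈ univ.filter (fun b' => lam b' = 1 ∧ cl b' = b),
        (X (cl b') : MvPolynomial B Λ) ^ k = X b ^ k := by
      intro b' hb'
      rw [(Finset.mem_filter.1 hb').2.2]
    rw [Finset.sum_congr rfl h3, Finset.sum_const, hcl0 b hb.2.le]
    congr 1
    have := hfib b hb.2
    omega
  rw [h2]
  rw [Finset.sum_sigma']
  refine Finset.sum_bij' (fun b _ => ⟨cl b, b⟩) (fun p _ => p.2) ?_ ?_ ?_ ?_ ?_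
  · intro b hb
    simp only [Finset.mem_filter, Finset.mem_univ, true_and] at hb
    simp only [Finset.mem_sigma, Finset.mem_filter, Finset.mem_univ, true_and, and_true]
    exact ⟨⟨by rw [hvx, hb.1], hcl1 b hb.2⟩, hb.2⟩
  · rintro ⟨b, b'⟩ hb
    simp only [Finset.mem_sigma, Finset.mem_filter, Finset.mem_univ, true_and] at hb
    simp only [Finset.mem_filter, Finset.mem_univ, true_and]
    exact ⟨by rw [← hvx b', hb.2.2, hb.1.1], hb.2.1⟩
  · intro b _; rfl
  · rintro ⟨b, b'⟩ hb
    simp only [Finset.mem_sigma, Finset.mem_filter, Finset.mem_univ, true_and] at hb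
    obtain ⟨_, _, h⟩ := hb
    subst h
    rfl
  · intro b _; rfl

variable [Algebra ℚ Λ]

/-- **KER.** On the invariants of the stabiliser of `lam` (all entries at most `1`) the kernel of the
clustering map `rename cl` is generated by the elements `GG i (k+1)`. -/
theorem ker_psi {I : Type*} [DecidableEq I] (vx : B → I) (lam : B → ℤ) (cl : B → B)
    (hle : ∀ b, lam b ≤ 1)
    (hvx : ∀ b, vx (cl b) = vx b)
    (hcl0 : ∀ b, lam b ≤ 0 → cl b = b)
    (hcl1 : ∀ b, lam b = 1 → lam (cl b) < 0)
    (hfib : ∀ b, lam b < 0 →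
      ((univ.filter fun b' => lam b' = 1 ∧ cl b' = b).card : ℤ) = -lam b)
    {h : MvPolynomial B Λ} (hh : h ∈ Inv Λ (colLam vx lam)) (hpsi : rename cl h = 0) :
    h ∈ Submodule.span (Inv Λ (colLam vx lam))
      (Set.range fun t : I × ℕ => GG Λ vx lam t.1 (t.2 + 1)) := by
  classical
  set N : Submodule (Inv Λ (colLam vx lam)) (MvPolynomial B Λ) :=
    Submodule.span (Inv Λ (colLam vx lam))
      (Set.range fun t : I × ℕ => GG Λ vx lam t.1 (t.2 + 1)) with hN
  set A0 : Subalgebra Λ (MvPolynomial B Λ) :=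
    Algebra.adjoin Λ {p | ∃ (b : B) (k : ℕ), lam b ≤ 0 ∧
      p = pw (B := B) Λ (univ.filter fun b' => colLam vx lam b' = colLam vx lam b) (k + 1)} with hA0
  have hA0Inv : A0 ≤ Inv Λ (colLam vx lam) := by
    refine Algebra.adjoin_le ?_
    rintro _ ⟨b, k, _, rfl⟩
    refine pw_mem_Inv ?_
    intro b1 b2 h12 h1
    simp only [Finset.mem_filter, Finset.mem_univ, true_and] at h1 ⊢
    rw [← h12, h1]
  -- every invariant is congruent to an element of `A0` modulo `N`
  have key : ∀ f ∈ Inv Λ (colLam vx lam), ∃ f' ∈ A0, f - f' ∈ N := by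
    intro f hf
    have hf' := mem_adjoin_pw hf
    have hsub : Algebra.adjoin Λ {p | ∃ (b : B) (k : ℕ),
        p = pw (B := B) Λ (univ.filter fun b' => colLam vx lam b' = colLam vx lam b) (k + 1)} ≤
        Inv Λ (colLam vx lam) := by
      refine Algebra.adjoin_le ?_
      rintro _ ⟨b, k, rfl⟩
      refine pw_mem_Inv ?_
      intro b1 b2 h12 h1
      simp only [Finset.mem_filter, Finset.mem_univ, true_and] at h1 ⊢
      rw [← h12, h1]
    clear hf
    induction hf' using Algebra.adjoin_induction with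
    | mem x hx =>
      obtain ⟨b, k, rfl⟩ := hx
      by_cases hb : lam b ≤ 0
      · exact ⟨_, Algebra.subset_adjoin ⟨b, k, hb, rfl⟩, by rw [sub_self]; exact N.zero_mem⟩
      · have hb1 : lam b = 1 := le_antisymm (hle b) (by omega)
        refine ⟨∑ b' ∈ univ.filter (fun b' => vx b' = vx b ∧ lam b' < 0),
          (-lam b').toNat • (X b' : MvPolynomial B Λ) ^ (k + 1), ?_, ?_⟩
        · -- sort the boxes by the value of `lam`
          have h1 : ∑ b' ∈ univ.filter (fun b' => vx b' = vx b ∧ lam b' < 0),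
              (-lam b').toNat • (X b' : MvPolynomial B Λ) ^ (k + 1) =
              ∑ l ∈ (univ.filter (fun b' => vx b' = vx b ∧ lam b' < 0)).image lam,
                (-l).toNat • ∑ b' ∈ (univ.filter
                  (fun b' => vx b' = vx b ∧ lam b' < 0)).filter (fun b' => lam b' = l),
                  (X b' : MvPolynomial B Λ) ^ (k + 1) := by
            rw [← Finset.sum_fiberwise_of_maps_to (g := lam)
              (t := (univ.filter (fun b' => vx b' = vx b ∧ lam b' < 0)).image lam)
              (fun x hx => Finset.mem_image_of_mem _ hx)]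
            refine Finset.sum_congr rfl fun l _ => ?_
            rw [Finset.smul_sum]
            refine Finset.sum_congr rfl fun b' hb' => ?_
            rw [(Finset.mem_filter.1 hb').2]
          rw [h1]
          refine Subalgebra.sum_mem _ fun l hl => Subalgebra.nsmul_mem _ ?_ _
          obtain ⟨b0, hb0, rfl⟩ := Finset.mem_image.1 hl
          simp only [Finset.mem_filter, Finset.mem_univ, true_and] at hb0
          refine Algebra.subset_adjoin ⟨b0, k, hb0.2.le, ?_⟩
          rw [pw]
          refine Finset.sum_congr ?_ fun _ _ => rfl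
          ext b'
          simp only [Finset.mem_filter, Finset.mem_univ, true_and, colLam, Prod.mk.injEq]
          constructor
          · rintro ⟨⟨h2, _⟩, h3⟩
            exact ⟨by rw [h2, hb0.1], h3⟩
          · rintro ⟨h2, h3⟩
            exact ⟨⟨by rw [h2, hb0.1], by rw [h3]; exact hb0.2⟩, h3⟩
        · have : pw Λ (univ.filter fun b' => colLam vx lam b' = colLam vx lam b) (k + 1) -
              ∑ b' ∈ univ.filter (fun b' => vx b' = vx b ∧ lam b' < 0),
                (-lam b').toNat • (X b' : MvPolynomial B Λ) ^ (k + 1) =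
              GG Λ vx lam (vx b) (k + 1) := by
            rw [GG, pw]
            congr 1
            refine Finset.sum_congr ?_ fun _ _ => rfl
            ext b'
            simp only [Finset.mem_filter, Finset.mem_univ, true_and, colLam, Prod.mk.injEq, hb1]
          rw [this]
          exact Submodule.subset_span ⟨(vx b, k), rfl⟩
    | algebraMap r =>
      exact ⟨_, A0.algebraMap_mem r, by rw [sub_self]; exact N.zero_mem⟩
    | add x y hx hy ihx ihy =>
      obtain ⟨x', hx', hx2⟩ := ihx
      obtain ⟨y', hy', hy2⟩ := ihy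
      refine ⟨x' + y', A0.add_mem hx' hy', ?_⟩
      have : x + y - (x' + y') = (x - x') + (y - y') := by ring
      rw [this]
      exact N.add_mem hx2 hy2
    | mul x y hx hy ihx ihy =>
      obtain ⟨x', hx', hx2⟩ := ihx
      obtain ⟨y', hy', hy2⟩ := ihy
      refine ⟨x' * y', A0.mul_mem hx' hy', ?_⟩
      have : x * y - x' * y' = y * (x - x') + x' * (y - y') := by ring
      rw [this]
      refine N.add_mem ?_ ?_
      · exact N.smul_mem (⟨y, hsub hy⟩ : Inv Λ (colLam vx lam)) hx2
      · exact N.smul_mem (⟨x', hA0Inv hx'⟩ : Inv Λ (colLam vx lam)) hy2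
  -- `rename cl` kills `N`
  have hNker : ∀ f ∈ N, rename cl f = 0 := by
    intro f hf
    induction hf using Submodule.span_induction with
    | mem x hx =>
      obtain ⟨t, rfl⟩ := hx
      exact rename_cl_GG vx lam cl hvx hcl0 hcl1 hfib _ _
    | zero => simp
    | add x y _ _ hx hy => rw [map_add, hx, hy, add_zero]
    | smul a x _ hx =>
      rw [Subalgebra.smul_def, smul_eq_mul, map_mul, hx, mul_zero]
  -- `rename cl` is the identity on `A0`
  have hA0fix : ∀ f ∈ A0, rename cl f = f := by
    intro f hf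
    induction hf using Algebra.adjoin_induction with
    | mem x hx =>
      obtain ⟨b, k, hb, rfl⟩ := hx
      simp only [pw, map_sum, map_pow, rename_X]
      refine Finset.sum_congr rfl fun b' hb' => ?_
      simp only [Finset.mem_filter, Finset.mem_univ, true_and, colLam, Prod.mk.injEq] at hb'
      rw [hcl0 b' (by rw [hb'.2]; exact hb)]
    | algebraMap r => simp
    | add x y _ _ hx hy => rw [map_add, hx, hy]
    | mul x y _ _ hx hy => rw [map_mul, hx, hy]
  obtain ⟨h', hh', hsub⟩ := key h hh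
  have h1 := hNker _ hsub
  rw [map_sub, hpsi, hA0fix _ hh', zero_sub, neg_eq_zero] at h1
  rw [h1, sub_zero] at hsub
  exact hsub

/-- Explicit form of `ker_psi`. -/
theorem ker_psi_sum {I : Type*} [DecidableEq I] (vx : B → I) (lam : B → ℤ) (cl : B → B)
    (hle : ∀ b, lam b ≤ 1)
    (hvx : ∀ b, vx (cl b) = vx b)
    (hcl0 : ∀ b, lam b ≤ 0 → cl b = b)
    (hcl1 : ∀ b, lam b = 1 → lam (cl b) < 0)
    (hfib : ∀ b, lam b < 0 →
      ((univ.filter fun b' => lam b' = 1 ∧ cl b' = b).card : ℤ) = -lam b)
    {h : MvPolynomial B Λ}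
    (hh : ∀ σ : Equiv.Perm B, (∀ b, vx (σ b) = vx b) → (∀ b, lam (σ b) = lam b) →
      rename σ h = h) (hpsi : rename cl h = 0) :
    ∃ (T : Finset (I × ℕ)) (g : I × ℕ → MvPolynomial B Λ),
      (∀ t, ∀ σ : Equiv.Perm B, (∀ b, vx (σ b) = vx b) → (∀ b, lam (σ b) = lam b) →
        rename σ (g t) = g t) ∧
      h = ∑ t ∈ T, g t * GG Λ vx lam t.1 (t.2 + 1) := by
  have hh' : h ∈ Inv Λ (colLam vx lam) := by
    intro σ hσ
    simp only [colLam, Prod.mk.injEq] at hσ
    exact hh σ (fun b => (hσ b).1) fun b => (hσ b).2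
  have h1 := ker_psi vx lam cl hle hvx hcl0 hcl1 hfib hh' hpsi
  rw [Finsupp.mem_span_range_iff_exists_finsupp] at h1
  obtain ⟨c, hc⟩ := h1
  refine ⟨c.support, fun t => (c t : MvPolynomial B Λ), ?_, ?_⟩
  · intro t σ h1 h2
    exact (c t).2 σ fun b => by simp only [colLam, h1 b, h2 b]
  · rw [← hc, Finsupp.sum]
    rfl

end Vale.Agent.P291.H134
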