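import Mathlib

/-!
# P291, block SYM: invariants of Young subgroups

`S = MvPolynomial B Λ`, `Λ` a commutative `ℚ`-algebra.  For a colouring `c : B → J` the algebra
`Inv c` consists of the polynomials invariant under all permutations of `B` preserving `c`.

* `mem_adjoin_pw` : it is generated by the power sums of the colour classes;
* `surj_of_atoms`, `surj_chain`, `surj_disjoint` : products of invariants of the single sets.
-/

set_option linter.unusedSectionVars false

open MvPolynomial Finset

namespace Vale.Agent.P291.H134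

variable {Λ : Type*} [CommRing Λ]
variable {B : Type*} [Fintype B] [DecidableEq B]

/-- Power sum over a finite set of boxes. -/
noncomputable def pw (Λ : Type*) [CommRing Λ] (T : Finset B) (k : ℕ) : MvPolynomial B Λ :=
  ∑ b ∈ T, X b ^ k

/-- Invariants of the Young subgroup of all permutations preserving the colouring `c`. -/
def Inv (Λ : Type*) [CommRing Λ] {J : Type*} (c : B → J) : Subalgebra Λ (MvPolynomial B Λ) where
  carrier := {f | ∀ σ : Equiv.Perm B, (∀ b, c (σ b) = c b) → rename σ f = f}
  mul_mem' := by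
    intro a b ha hb σ hσ
    rw [map_mul, ha σ hσ, hb σ hσ]
  add_mem' := by
    intro a b ha hb σ hσ
    rw [map_add, ha σ hσ, hb σ hσ]
  algebraMap_mem' := by
    intro r σ _
    simp

theorem mem_Inv {J : Type*} {c : B → J} {f : MvPolynomial B Λ} :
    f ∈ Inv Λ c ↔ ∀ σ : Equiv.Perm B, (∀ b, c (σ b) = c b) → rename σ f = f := Iff.rfl

theorem Inv_mono {J J' : Type*} {c : B → J} {c' : B → J'}
    (h : ∀ b b', c b = c b' → c' b = c' b') : Inv Λ c' ≤ Inv Λ c := by
  intro f hf σ hσ
  exact hf σ fun b => h _ _ (hσ b)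

theorem rename_pw (σ : Equiv.Perm B) (T : Finset B) (k : ℕ) :
    rename σ (pw Λ T k) = pw Λ (T.map σ.toEmbedding) k := by
  simp [pw, map_sum]

theorem pw_mem_Inv {J : Type*} {c : B → J} {T : Finset B} {k : ℕ}
    (h : ∀ b b', c b = c b' → b ∈ T → b' ∈ T) : pw Λ T k ∈ Inv Λ c := by
  intro σ hσ
  rw [rename_pw]
  congr 1
  refine Finset.eq_of_subset_of_card_le ?_ (by simp)
  intro x hx
  rw [Finset.mem_map] at hx
  obtain ⟨b, hb, rfl⟩ := hx
  exact h b _ (hσ b).symm hb

section Sym

variable [Algebra ℚ Λ]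

omit [Fintype B] [DecidableEq B] in
/-- division by a nonzero natural number inside a subalgebra -/
theorem mem_of_natCast_mul_mem {A : Type*} [CommRing A] [Algebra Λ A] (M : Subalgebra Λ A)
    {n : ℕ} (hn : n ≠ 0) {x : A} (h : (n : A) * x ∈ M) : x ∈ M := by
  have h1 : (algebraMap Λ A (algebraMap ℚ Λ (n : ℚ)⁻¹)) * ((n : A) * x) = x := by
    rw [← mul_assoc]
    have : (algebraMap Λ A (algebraMap ℚ Λ (n : ℚ)⁻¹)) * (n : A) = 1 := by
      have h2 : (n : A) = algebraMap Λ A (algebraMap ℚ Λ (n : ℚ)) := by simp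
      rw [h2, ← map_mul, ← map_mul, inv_mul_cancel₀ (by exact_mod_cast hn)]
      simp
    rw [this, one_mul]
  rw [← h1]
  exact M.mul_mem (M.algebraMap_mem _) h

/-- The elementary symmetric polynomials are polynomials in the power sums. -/
theorem esymm_mem_adjoin (σ : Type*) [Fintype σ] (k : ℕ) :
    esymm σ Λ k ∈ Algebra.adjoin Λ (Set.range fun k : ℕ => psum σ Λ (k + 1)) := by
  classical
  induction k using Nat.strong_induction_on with
  | _ k ih =>
    rcases Nat.eq_zero_or_pos k with rfl | hk
    · rw [esymm_zero]; exact Subalgebra.one_mem _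
    · apply mem_of_natCast_mul_mem _ hk.ne'
      rw [mul_esymm_eq_sum]
      refine Subalgebra.mul_mem _ (Subalgebra.pow_mem _ (Subalgebra.neg_mem _
        (Subalgebra.one_mem _)) _) (Subalgebra.sum_mem _ fun a ha => ?_)
      rw [Finset.mem_filter, HasAntidiagonal.mem_antidiagonal] at ha
      refine Subalgebra.mul_mem _ (Subalgebra.mul_mem _ (Subalgebra.pow_mem _
        (Subalgebra.neg_mem _ (Subalgebra.one_mem _)) _) (ih _ ha.2)) ?_
      obtain ⟨m, hm⟩ : ∃ m, a.2 = m + 1 := ⟨a.2 - 1, by omega⟩
      rw [hm]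
      exact Algebra.subset_adjoin ⟨m, rfl⟩

/-- Symmetric polynomials are polynomials in the power sums. -/
theorem symmetric_mem_adjoin (σ : Type*) [Fintype σ] {f : MvPolynomial σ Λ}
    (hf : f.IsSymmetric) :
    f ∈ Algebra.adjoin Λ (Set.range fun k : ℕ => psum σ Λ (k + 1)) := by
  classical
  obtain ⟨p, hp⟩ := esymmAlgHom_surjective (σ := σ) (R := Λ) (n := Fintype.card σ) le_rfl ⟨f, hf⟩
  have hp' := congrArg Subtype.val hp
  rw [esymmAlgHom_apply] at hp'
  simp only at hp'
  rw [← hp']
  have : (aeval (fun i : Fin (Fintype.card σ) => esymm σ Λ (i + 1)) p : MvPolynomial σ Λ) ∈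
      Algebra.adjoin Λ (Set.range fun i : Fin (Fintype.card σ) => esymm σ Λ (i + 1)) := by
    rw [Algebra.adjoin_range_eq_range_aeval]
    exact ⟨p, rfl⟩
  refine Algebra.adjoin_le ?_ this
  rintro _ ⟨i, rfl⟩
  exact esymm_mem_adjoin σ _

/-- Averaging over the permutations of the set `T`. -/
noncomputable def av (T : Finset B) (f : MvPolynomial B Λ) : MvPolynomial B Λ :=
  algebraMap Λ _ (algebraMap ℚ Λ ((Fintype.card (Equiv.Perm T) : ℚ)⁻¹)) *
    ∑ σ : Equiv.Perm T, rename (Equiv.Perm.ofSubtype σ) f

theorem av_add (T : Finset B) (f g : MvPolynomial B Λ) : av T (f + g) = av T f + av T g := by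
  simp only [av, map_add, Finset.sum_add_distrib, mul_add]

theorem av_eq_of_inv {T : Finset B} {f : MvPolynomial B Λ}
    (h : ∀ σ : Equiv.Perm T, rename (Equiv.Perm.ofSubtype σ) f = f) : av T f = f := by
  unfold av
  rw [Finset.sum_congr rfl fun σ _ => h σ, Finset.sum_const, Finset.card_univ, nsmul_eq_mul,
    ← mul_assoc]
  have h2 : ((Fintype.card (Equiv.Perm T) : ℕ) : MvPolynomial B Λ) =
      algebraMap Λ _ (algebraMap ℚ Λ (Fintype.card (Equiv.Perm T) : ℚ)) := by simp
  rw [h2, ← map_mul, ← map_mul, inv_mul_cancel₀ (by exact_mod_cast Fintype.card_ne_zero)]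
  simp

theorem av_mul {T : Finset B} {a f : MvPolynomial B Λ}
    (h : ∀ σ : Equiv.Perm T, rename (Equiv.Perm.ofSubtype σ) a = a) :
    av T (a * f) = a * av T f := by
  unfold av
  simp only [map_mul, h]
  rw [← Finset.mul_sum]
  ring

theorem av_rename_val {T : Finset B} (g : MvPolynomial T Λ) :
    av T (rename Subtype.val g) ∈
      Algebra.adjoin Λ (Set.range fun k : ℕ => pw (B := B) Λ T (k + 1)) := by
  classical
  set g' : MvPolynomial T Λ :=
    algebraMap Λ _ (algebraMap ℚ Λ ((Fintype.card (Equiv.Perm T) : ℚ)⁻¹)) *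
      ∑ σ : Equiv.Perm T, rename σ g with hg'
  have h1 : av T (rename Subtype.val g) = rename Subtype.val g' := by
    rw [hg']
    unfold av
    rw [map_mul, map_sum, AlgHom.commutes]
    congr 1
    refine Finset.sum_congr rfl fun σ _ => ?_
    rw [rename_rename, rename_rename]
    have : (Equiv.Perm.ofSubtype σ : B → B) ∘ (Subtype.val : T → B) = Subtype.val ∘ σ := by
      funext x
      exact Equiv.Perm.ofSubtype_apply_coe σ x
    rw [this]
  have hs : g'.IsSymmetric := by
    intro e
    rw [hg', map_mul, map_sum, AlgHom.commutes]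
    congr 1
    rw [← Equiv.sum_comp (Equiv.mulLeft e) (fun σ : Equiv.Perm T => rename σ g)]
    refine Finset.sum_congr rfl fun σ _ => ?_
    rw [rename_rename]
    rfl
  rw [h1]
  have h2 := symmetric_mem_adjoin _ hs
  have h3 : rename Subtype.val g' ∈
      (Algebra.adjoin Λ (Set.range fun k : ℕ => psum T Λ (k + 1))).map
        (rename (Subtype.val : T → B)) := ⟨g', h2, rfl⟩
  rw [AlgHom.map_adjoin] at h3
  refine Algebra.adjoin_mono ?_ h3
  rintro _ ⟨_, ⟨k, rfl⟩, rfl⟩
  refine ⟨k, ?_⟩
  simp only [pw, psum, map_sum, map_pow, AlgHom.coe_toRingHom, rename_X]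
  rw [← Finset.sum_coe_sort T (fun b => (X b : MvPolynomial B Λ) ^ (k + 1))]

/-- One step of the averaging: the variables of `T` are replaced by the power sums of `T`. -/
theorem av_mem {T : Finset B} {A : Set (MvPolynomial B Λ)}
    (hA : ∀ a ∈ A, ∀ σ : Equiv.Perm T, rename (Equiv.Perm.ofSubtype σ) a = a)
    {f : MvPolynomial B Λ}
    (hf : f ∈ Algebra.adjoin Λ (A ∪ (X '' (T : Set B)))) :
    av T f ∈ Algebra.adjoin Λ (A ∪ Set.range fun k : ℕ => pw (B := B) Λ T (k + 1)) := by
  classical
  have hA' : ∀ a ∈ Algebra.adjoin Λ A, ∀ σ : Equiv.Perm T,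
      rename (Equiv.Perm.ofSubtype σ) a = a := by
    intro a ha σ
    induction ha using Algebra.adjoin_induction with
    | mem x hx => exact hA x hx σ
    | algebraMap r => simp
    | add x y _ _ hx hy => rw [map_add, hx, hy]
    | mul x y _ _ hx hy => rw [map_mul, hx, hy]
  have h1 : f ∈ Subalgebra.toSubmodule (Algebra.adjoin Λ A) *
      Subalgebra.toSubmodule (Algebra.adjoin Λ (X '' (T : Set B))) := by
    have := Algebra.adjoin_union_coe_submodule Λ A (X '' (T : Set B) : Set (MvPolynomial B Λ))
    rw [← this]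
    exact hf
  refine Submodule.mul_induction_on h1 ?_ ?_
  · intro a ha m hm
    rw [av_mul (hA' a ha)]
    refine Subalgebra.mul_mem _ (Algebra.adjoin_mono Set.subset_union_left ha) ?_
    have hm' : m ∈ (rename (R := Λ) (Subtype.val : T → B)).range := by
      have : Algebra.adjoin Λ (X '' (T : Set B) : Set (MvPolynomial B Λ)) ≤
          (rename (R := Λ) (Subtype.val : T → B)).range := by
        refine Algebra.adjoin_le ?_
        rintro _ ⟨b, hb, rfl⟩
        exact ⟨X ⟨b, hb⟩, by simp⟩
      exact this hm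
    obtain ⟨g, rfl⟩ := hm'
    exact Algebra.adjoin_mono Set.subset_union_right (av_rename_val g)
  · intro x y hx hy
    rw [av_add]
    exact Subalgebra.add_mem _ hx hy

/-- **Generation.** Invariants of a Young subgroup are generated by the power sums of the
colour classes. -/
theorem mem_adjoin_pw {J : Type*} [DecidableEq J] {c : B → J} {f : MvPolynomial B Λ}
    (hf : f ∈ Inv Λ c) :
    f ∈ Algebra.adjoin Λ {p | ∃ (b : B) (k : ℕ),
      p = pw (B := B) Λ (univ.filter fun b' => c b' = c b) (k + 1)} := by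
  classical
  -- process the colours one by one
  have key : ∀ P : Finset J, ∀ g : MvPolynomial B Λ, g ∈ Inv Λ c →
      g ∈ Algebra.adjoin Λ ({p | ∃ (b : B) (k : ℕ), c b ∈ P ∧
        p = pw (B := B) Λ (univ.filter fun b' => c b' = c b) (k + 1)} ∪
          (X '' {b : B | c b ∉ P})) := by
    intro P
    induction P using Finset.induction_on with
    | empty =>
      intro g _
      have h0 : Algebra.adjoin Λ (Set.range (X : B → MvPolynomial B Λ)) = ⊤ := adjoin_range_X
      have h1 : g ∈ Algebra.adjoin Λ (Set.range (X : B → MvPolynomial B Λ)) := by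
        rw [h0]; trivial
      refine Algebra.adjoin_mono ?_ h1
      rintro _ ⟨b, rfl⟩
      exact Or.inr ⟨b, by simp, rfl⟩
    | insert j P hj ih =>
      intro g hg
      set T : Finset B := univ.filter fun b => c b = j with hT
      have hinv : ∀ σ : Equiv.Perm T, ∀ b, c (Equiv.Perm.ofSubtype σ b) = c b := by
        intro σ b
        by_cases hb : b ∈ T
        · have h1 : Equiv.Perm.ofSubtype σ b = (σ ⟨b, hb⟩ : B) :=
            Equiv.Perm.ofSubtype_apply_of_mem σ hb
          rw [h1]
          have h2 := (Finset.mem_filter.1 (σ ⟨b, hb⟩).2).2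
          have h3 := (Finset.mem_filter.1 hb).2
          rw [h2, h3]
        · rw [Equiv.Perm.ofSubtype_apply_of_not_mem σ hb]
      have hg' : av T g = g := av_eq_of_inv fun σ => hg _ (hinv σ)
      rw [← hg']
      have hgP := ih g hg
      -- split off the variables of `T`
      set A : Set (MvPolynomial B Λ) := {p | ∃ (b : B) (k : ℕ), c b ∈ P ∧
        p = pw (B := B) Λ (univ.filter fun b' => c b' = c b) (k + 1)} ∪
          (X '' {b : B | c b ∉ insert j P}) with hAdef
      have hsub : g ∈ Algebra.adjoin Λ (A ∪ (X '' (T : Set B))) := by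
        refine Algebra.adjoin_mono ?_ hgP
        rintro p (hp | ⟨b, hb, rfl⟩)
        · exact Or.inl (Or.inl hp)
        · by_cases hbj : c b = j
          · exact Or.inr ⟨b, by simp [hT, hbj], rfl⟩
          · refine Or.inl (Or.inr ⟨b, ?_, rfl⟩)
            exact fun h => (Finset.mem_insert.1 h).elim hbj hb
      have hAinv : ∀ a ∈ A, ∀ σ : Equiv.Perm T, rename (Equiv.Perm.ofSubtype σ) a = a := by
        rintro a (⟨b, k, _, rfl⟩ | ⟨b, hb, rfl⟩) σ
        · refine pw_mem_Inv (c := c) ?_ _ (hinv σ)
          intro b1 b2 h12 h1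
          simp only [Finset.mem_filter, Finset.mem_univ, true_and] at h1 ⊢
          rw [← h12, h1]
        · rw [rename_X, Equiv.Perm.ofSubtype_apply_of_not_mem σ]
          intro hbT
          rw [hT, Finset.mem_filter] at hbT
          apply hb
          rw [hbT.2]
          exact Finset.mem_insert_self _ _
      have h3 := av_mem hAinv hsub
      refine Algebra.adjoin_le ?_ h3
      rintro p ((⟨b, k, hb, rfl⟩ | ⟨b, hb, rfl⟩) | ⟨k, rfl⟩)
      · exact Algebra.subset_adjoin (Or.inl ⟨b, k, Finset.mem_insert_of_mem hb, rfl⟩)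
      · exact Algebra.subset_adjoin (Or.inr ⟨b, hb, rfl⟩)
      · by_cases hne : T.Nonempty
        · obtain ⟨b, hb⟩ := hne
          have hb' : c b = j := by
            rw [hT, Finset.mem_filter] at hb
            exact hb.2
          refine Algebra.subset_adjoin (Or.inl ⟨b, k, ?_, ?_⟩)
          · rw [hb']; exact Finset.mem_insert_self _ _
          · rw [hb', hT]
        · rw [Finset.not_nonempty_iff_eq_empty] at hne
          simp only [hne, pw, Finset.sum_empty]
          exact Subalgebra.zero_mem _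
  have h := key (univ.image c) f hf
  refine Algebra.adjoin_mono ?_ h
  rintro p (⟨b, k, _, rfl⟩ | ⟨b, hb, rfl⟩)
  · exact ⟨b, k, rfl⟩
  · exact absurd (Finset.mem_image_of_mem c (Finset.mem_univ b)) hb

end Sym

end Vale.Agent.P291.H134
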